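import Vale.Agent.P141.PL.H997.Sup
import Vale.Agent.P141.PL.Defs1

/-!
# P141, cost theorem, (M3): energies and windows of the killed matrices from `Comp`

For fixed `x₀` the matrix `(x₁, x₂) ↦ a (x₁, x₂) * G k (x₀, x₁, x₂)`, killed on an arbitrary
family of sets increasing when the scale decreases, satisfies both clauses of 804's `Mv` with
`D x₀ = dk ... x₀`, and the sum of `D x₀` over the intervals of scale `K` with indices in `X` is at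
most `4 (1 + J (J + 1)) (J + 1) #X 2 ^ K Λ sq a`.  All three matrices have `x₀` as FIRST coordinate
of the face function, so this one lemma serves `G3 (x₀,x₁,x₂)`, `G1 (x₀,x₂,x₃)`, `G2 (x₀,x₁,x₃)`.
-/

namespace Vale.Agent.P141.PL.H997

open Finset Vale.Agent.P141.PL Vale.Agent.P141.PL.H588

noncomputable section

/-- the matrix path at `x₀` -/
def mat (a : ℤ → ℤ → ℝ) (G : ℕ → Pt → ℝ) (x0 : ℤ) : ℕ → ℤ → ℤ → ℝ :=
  fun k x y => a x y * G k (x0, x, y)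

/-- the killed matrix path at `x₀` -/
def matk (a : ℤ → ℤ → ℝ) (R' : ℕ → Pt → Prop) (G : ℕ → Pt → ℝ) (x0 : ℤ) : ℕ → ℤ → ℤ → ℝ :=
  kil (fun k x y => R' k (x0, x, y)) (mat a G x0)

theorem matk_of {a : ℤ → ℤ → ℝ} {R' : ℕ → Pt → Prop} {G : ℕ → Pt → ℝ} {x0 : ℤ} {k : ℕ} {x y : ℤ}
    (h : R' k (x0, x, y)) : matk a R' G x0 k x y = 0 := kil_of h

theorem matk_of_not {a : ℤ → ℤ → ℝ} {R' : ℕ → Pt → Prop} {G : ℕ → Pt → ℝ} {x0 : ℤ} {k : ℕ}
    {x y : ℤ} (h : ¬ R' k (x0, x, y)) : matk a R' G x0 k x y = a x y * G k (x0, x, y) :=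
  kil_of_not h

/-- The constant `D x₀` of the (killed) matrix at `x₀`, root square `(K, M1) × (K, M2)`. -/
def dk (K : ℕ) (M1 M2 : ℤ) (J : ℕ) (a : ℤ → ℤ → ℝ) (G : ℕ → Pt → ℝ) (x0 : ℤ) : ℝ :=
  4 * (1 + J * (J + 1)) * dtot K M1 M2 J (mat a G x0)

theorem dk_nonneg (K : ℕ) (M1 M2 : ℤ) (J : ℕ) (a : ℤ → ℤ → ℝ) (G : ℕ → Pt → ℝ) (x0 : ℤ) :
    0 ≤ dk K M1 M2 J a G x0 :=
  mul_nonneg (by positivity) (dtot_nonneg _ _ _ _ _)

/-- **(M3a)** energies at all scales of the killed matrix. -/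
theorem sq_matk_le {K J : ℕ} {M1 M2 : ℤ} {a : ℤ → ℤ → ℝ} {R' : ℕ → Pt → Prop}
    {G : ℕ → Pt → ℝ} {x0 : ℤ} (hR : ∀ k l p, k ≤ l → R' l p → R' k p) {k : ℕ} (hk : k ≤ K)
    (hkJ : K - k < 2 ^ J) : sq K M1 M2 (matk a R' G x0 k) ≤ dk K M1 M2 J a G x0 :=
  (mv_kil_dtot (R' := fun k x y => R' k (x0, x, y)) (F := mat a G x0)
    (fun k l _ _ h => hR k l _ h)).1 k hk hkJ

/-- **(M3b)** window sums of the killed matrix (literally the sums of `StMov` / `Mv`). -/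
theorem win_matk_le {K J : ℕ} {M1 M2 : ℤ} {a : ℤ → ℤ → ℝ} {R' : ℕ → Pt → Prop}
    {G : ℕ → Pt → ℝ} {x0 : ℤ} (hR : ∀ k l p, k ≤ l → R' l p → R' k p) {j : ℕ} (hj : j < J) :
    ∑ i ∈ range (2 ^ (J - 1 - j)), sq K M1 M2 (matk a R' G x0 (K - min ((2 * i + 1) * 2 ^ j) K)
      - matk a R' G x0 (K - min ((2 * i) * 2 ^ j) K)) ≤ dk K M1 M2 J a G x0 :=
  (mv_kil_dtot (R' := fun k x y => R' k (x0, x, y)) (F := mat a G x0)
    (fun k l _ _ h => hR k l _ h)).2 j hj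

/-- **(M3c)** the sum over one interval of `x₀`. -/
theorem sum_dk_le {n : ℕ} {e δ Λ : ℝ} {G : ℕ → Pt → ℝ} (hG : Comp n e δ Λ G) {K J : ℕ}
    (hK : K ≤ n) (hJ : K ≤ 2 ^ J) (M1 M2 : ℤ) (a : ℤ → ℤ → ℝ) (t : ℤ) :
    ∑ x0 ∈ iv K t, dk K M1 M2 J a G x0
      ≤ 4 * (1 + J * (J + 1)) * (J + 1) * (2 ^ K * Λ * sq K M1 M2 a) := by
  have h := sum_dtot_le (iv K t) (N := K) (J := J) (R := M1) (S := M2) (mat a G) a
    (L := 2 ^ K * Λ)
    (fun x _ y _ => by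
      have h1 := hG.line1 K K le_rfl hK t x y
      have h2 := mul_le_mul_of_nonneg_left h1 (sq_nonneg (a x y))
      rw [mul_sum] at h2
      calc ∑ x0 ∈ iv K t, mat a G x0 K x y ^ 2
          = ∑ x0 ∈ iv K t, a x y ^ 2 * G K (x0, x, y) ^ 2 :=
            sum_congr rfl fun x0 _ => by unfold mat; ring
        _ ≤ _ := h2
        _ = _ := by ring)
    (fun j hj x _ y _ => by
      have h1 := hG.win1 K hK J j hJ hj t x y
      have h2 := mul_le_mul_of_nonneg_left h1 (sq_nonneg (a x y))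
      rw [mul_sum] at h2
      rw [sum_comm]
      calc ∑ i ∈ range (2 ^ (J - 1 - j)), ∑ x0 ∈ iv K t,
            (mat a G x0 (K - min ((2 * i + 1) * 2 ^ j) K) x y
              - mat a G x0 (K - min ((2 * i) * 2 ^ j) K) x y) ^ 2
          = ∑ i ∈ range (2 ^ (J - 1 - j)), a x y ^ 2 * ∑ x0 ∈ iv K t,
            (G (K - min ((2 * i + 1) * 2 ^ j) K) (x0, x, y)
              - G (K - min ((2 * i) * 2 ^ j) K) (x0, x, y)) ^ 2 := by
            refine sum_congr rfl fun i _ => ?_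
            rw [mul_sum]
            refine sum_congr rfl fun x0 _ => ?_
            unfold mat
            ring
        _ ≤ _ := h2
        _ = _ := by ring)
  unfold dk
  rw [← mul_sum]
  have h3 := mul_le_mul_of_nonneg_left h (by positivity : (0 : ℝ) ≤ 4 * (1 + J * (J + 1)))
  calc _ ≤ _ := h3
    _ = _ := by ring

/-- **(M3d)** the sum over the intervals of scale `K` with indices in `X`. -/
theorem sum_sum_dk_le {n : ℕ} {e δ Λ : ℝ} {G : ℕ → Pt → ℝ} (hG : Comp n e δ Λ G) {K J : ℕ}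
    (hK : K ≤ n) (hJ : K ≤ 2 ^ J) (M1 M2 : ℤ) (a : ℤ → ℤ → ℝ) (X : Finset ℤ) :
    ∑ t ∈ X, ∑ x0 ∈ iv K t, dk K M1 M2 J a G x0
      ≤ X.card * (4 * (1 + J * (J + 1)) * (J + 1) * (2 ^ K * Λ * sq K M1 M2 a)) := by
  have h := sum_le_sum fun t (_ : t ∈ X) => sum_dk_le hG hK hJ M1 M2 a t
  rw [sum_const, nsmul_eq_mul] at h
  exact h

/-- Cauchy–Schwarz over `x₀` in the form used after `star`. -/
theorem sum_sqrt_mul_le {ι : Type*} (T : Finset ι) {f g : ι → ℝ} (hf : ∀ t ∈ T, 0 ≤ f t)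
    (hg : ∀ t ∈ T, 0 ≤ g t) {E F : ℝ} (hE : ∑ t ∈ T, f t ≤ E) (hF : ∑ t ∈ T, g t ≤ F) :
    ∑ t ∈ T, Real.sqrt (f t * g t) ≤ Real.sqrt (E * F) := by
  have h1 : ∑ t ∈ T, Real.sqrt (f t * g t) = ∑ t ∈ T, Real.sqrt (f t) * Real.sqrt (g t) :=
    sum_congr rfl fun t ht => Real.sqrt_mul (hf t ht) _
  rw [h1]
  refine Real.le_sqrt_of_sq_le ?_
  refine (sum_mul_sq_le_sq_mul_sq T (fun t => Real.sqrt (f t)) fun t => Real.sqrt (g t)).trans ?_
  have h2 : ∑ t ∈ T, Real.sqrt (f t) ^ 2 = ∑ t ∈ T, f t :=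
    sum_congr rfl fun t ht => Real.sq_sqrt (hf t ht)
  have h3 : ∑ t ∈ T, Real.sqrt (g t) ^ 2 = ∑ t ∈ T, g t :=
    sum_congr rfl fun t ht => Real.sq_sqrt (hg t ht)
  rw [h2, h3]
  exact mul_le_mul hE hF (sum_nonneg hg) ((sum_nonneg hf).trans hE)

end

end Vale.Agent.P141.PL.H997
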