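import Vale.Agent.P141.PL.H588.Defs
import Vale.Agent.P141.PL.H317.Kill

/-!
# P141: supremum bounds and kills in the format of `StMov` / 804's `Mv`

From the top energy and the dyadic window sums one gets the energy at every scale, and both are
stable under kills (an arbitrary family of sets increasing when the scale decreases).
-/

namespace Vale.Agent.P141.PL.H997

open Finset Vale.Agent.P141.PL Vale.Agent.P141.PL.H317 Vale.Agent.P141.PL.H588

noncomputable section

variable {Z : Type*}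

/-- **Energy at every time** `s < 2 ^ J` from the initial energy and the dyadic window sums. -/
theorem sup_energy (S : Finset Z) {ω : Z → ℝ} (hω : ∀ z ∈ S, 0 ≤ ω z) (G : ℕ → Z → ℝ)
    (J : ℕ) {D E : ℝ}
    (hD : ∀ j, j < J → ∑ i ∈ range (2 ^ (J - 1 - j)), ∑ z ∈ S,
      ω z * (G ((2 * i + 1) * 2 ^ j) z - G ((2 * i) * 2 ^ j) z) ^ 2 ≤ D)
    (hE : ∑ z ∈ S, ω z * G 0 z ^ 2 ≤ E) {s : ℕ} (hs : s < 2 ^ J) :
    ∑ z ∈ S, ω z * G s z ^ 2 ≤ 3 * E + 3 * J * (J + 1) * D := by
  have h := anc_energy S hω G (fun _ => s + 1) J (fun z _ => ⟨by omega, by omega⟩) hD hE 0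
    (Nat.zero_le J)
  simpa [anc] using h

/-- The kill time of a family of sets. -/
def ktime (N : ℕ) (R : ℕ → Prop) [DecidablePred R] : ℕ :=
  ((range (N + 1)).filter fun s => ¬ R (N - s)).card

theorem ktime_spec {N : ℕ} {R : ℕ → Prop} [DecidablePred R]
    (hR : ∀ k l, k ≤ l → R l → R k) {s : ℕ} (hs : s ≤ N) :
    s < ktime N R ↔ ¬ R (N - s) := by
  unfold ktime
  constructor
  · intro h hr
    -- all times `≥ s` are killed, so the unkilled ones are `< s`
    have hsub : ((range (N + 1)).filter fun t => ¬ R (N - t)) ⊆ range s := by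
      intro t ht
      rw [mem_filter, mem_range] at ht
      rw [mem_range]
      by_contra hts
      exact ht.2 (hR _ _ (by omega) hr)
    have := card_le_card hsub
    rw [card_range] at this
    omega
  · intro h
    have hsub : range (s + 1) ⊆ ((range (N + 1)).filter fun t => ¬ R (N - t)) := by
      intro t ht
      rw [mem_range] at ht
      rw [mem_filter, mem_range]
      exact ⟨by omega, fun hr => h (hR _ _ (by omega) hr)⟩
    have := card_le_card hsub
    rw [card_range] at this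
    omega

/-- The dyadic window sums of a path of functions of two variables, in the time `N - k`. -/
def win (N : ℕ) (R S : ℤ) (J j : ℕ) (F : ℕ → ℤ → ℤ → ℝ) : ℝ :=
  ∑ i ∈ range (2 ^ (J - 1 - j)),
    sq N R S (F (N - min ((2 * i + 1) * 2 ^ j) N) - F (N - min ((2 * i) * 2 ^ j) N))

theorem sq_nonneg' (N : ℕ) (R S : ℤ) (F : ℤ → ℤ → ℝ) : 0 ≤ sq N R S F :=
  sum_nonneg fun _ _ => sum_nonneg fun _ _ => sq_nonneg _

theorem win_nonneg (N : ℕ) (R S : ℤ) (J j : ℕ) (F : ℕ → ℤ → ℤ → ℝ) : 0 ≤ win N R S J j F :=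
  sum_nonneg fun _ _ => sq_nonneg' _ _ _ _

theorem sq_eq_sum (N : ℕ) (R S : ℤ) (F : ℤ → ℤ → ℝ) :
    sq N R S F = ∑ z ∈ iv N S ×ˢ iv N R, 1 * F z.2 z.1 ^ 2 := by
  unfold H588.sq
  rw [sum_product]
  simp only [one_mul]

theorem win_eq_sum (N : ℕ) (R S : ℤ) (J j : ℕ) (F : ℕ → ℤ → ℤ → ℝ) :
    win N R S J j F = ∑ i ∈ range (2 ^ (J - 1 - j)), ∑ z ∈ iv N S ×ˢ iv N R,
      1 * ((fun (s : ℕ) (z : ℤ × ℤ) => F (N - min s N) z.2 z.1) ((2 * i + 1) * 2 ^ j) z
        - (fun (s : ℕ) (z : ℤ × ℤ) => F (N - min s N) z.2 z.1) ((2 * i) * 2 ^ j) z) ^ 2 := by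
  unfold win
  refine sum_congr rfl fun i _ => ?_
  rw [sq_eq_sum]
  rfl

/-- **Energy at every scale** from the top energy and the window sums. -/
theorem sq_sup {N J : ℕ} {R S : ℤ} {F : ℕ → ℤ → ℤ → ℝ} {E D : ℝ}
    (hE : sq N R S (F N) ≤ E) (hD : ∀ j, j < J → win N R S J j F ≤ D) {k : ℕ} (hk : k ≤ N)
    (hkJ : N - k < 2 ^ J) : sq N R S (F k) ≤ 3 * E + 3 * J * (J + 1) * D := by
  have h := sup_energy (iv N S ×ˢ iv N R) (ω := fun _ => 1) (fun _ _ => zero_le_one)
    (fun s z => F (N - min s N) z.2 z.1) J (D := D) (E := E)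
    (fun j hj => by rw [← win_eq_sum]; exact hD j hj)
    (by
      have : sq N R S (F N) = ∑ z ∈ iv N S ×ˢ iv N R,
          (fun _ => (1 : ℝ)) z * (fun (s : ℕ) (z : ℤ × ℤ) => F (N - min s N) z.2 z.1) 0 z ^ 2 := by
        rw [sq_eq_sum]
        refine sum_congr rfl fun z _ => ?_
        simp
      rw [← this]
      exact hE) hkJ
  have e : N - min (N - k) N = k := by omega
  rw [sq_eq_sum]
  simp only [e] at h
  exact h

/-- the path killed on an arbitrary family of sets -/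
def kil (R' : ℕ → ℤ → ℤ → Prop) (F : ℕ → ℤ → ℤ → ℝ) : ℕ → ℤ → ℤ → ℝ := by
  classical
  exact fun k x y => if R' k x y then 0 else F k x y

theorem kil_of {R' : ℕ → ℤ → ℤ → Prop} {F : ℕ → ℤ → ℤ → ℝ} {k : ℕ} {x y : ℤ} (h : R' k x y) :
    kil R' F k x y = 0 := by
  classical
  unfold kil
  exact if_pos h

theorem kil_of_not {R' : ℕ → ℤ → ℤ → Prop} {F : ℕ → ℤ → ℤ → ℝ} {k : ℕ} {x y : ℤ}
    (h : ¬ R' k x y) : kil R' F k x y = F k x y := by
  classical
  unfold kil
  exact if_neg h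

theorem sq_kil_le (R' : ℕ → ℤ → ℤ → Prop) (F : ℕ → ℤ → ℤ → ℝ) (N : ℕ) (R S : ℤ) (k : ℕ) :
    sq N R S (kil R' F k) ≤ sq N R S (F k) := by
  unfold H588.sq
  refine sum_le_sum fun y _ => sum_le_sum fun x _ => ?_
  by_cases h : R' k x y
  · rw [kil_of h]
    simpa using sq_nonneg (F k x y)
  · rw [kil_of_not h]

/-- **Window sums of a killed path**: `R'` increases when the scale decreases. -/
theorem win_kil {N J : ℕ} {R S : ℤ} {F : ℕ → ℤ → ℤ → ℝ} {R' : ℕ → ℤ → ℤ → Prop} {E D : ℝ}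
    (hR : ∀ k l x y, k ≤ l → R' l x y → R' k x y)
    (hE : sq N R S (F N) ≤ E) (hD : ∀ j, j < J → win N R S J j F ≤ D) {j : ℕ} (hj : j < J) :
    win N R S J j (kil R' F) ≤ 3 * E + (1 + 3 * J * (J + 1)) * D := by
  classical
  -- the kill time, infinite (`2 ^ J + 1`) when never killed up to time `N`
  set κ : ℤ × ℤ → ℕ := fun z =>
    if R' 0 z.2 z.1 then ktime N (fun k => R' k z.2 z.1) else 2 ^ J + N + 1 with hκ
  have hkey : ∀ (s : ℕ) (z : ℤ × ℤ),
      killed κ (fun s z => F (N - min s N) z.2 z.1) s z = kil R' F (N - min s N) z.2 z.1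
        ∨ 2 ^ J ≤ s := by
    intro s z
    by_cases hsJ : 2 ^ J ≤ s
    · exact Or.inr hsJ
    left
    unfold killed
    by_cases h0 : R' 0 z.2 z.1
    · have e : κ z = ktime N (fun k => R' k z.2 z.1) := by rw [hκ]; exact if_pos h0
      rw [e]
      have hsp := fun t (ht : t ≤ N) => ktime_spec (N := N) (R := fun k => R' k z.2 z.1)
        (fun k l hkl hl => hR k l _ _ hkl hl) (s := t) ht
      rcases le_total s N with hs | hs
      · rw [min_eq_left hs]
        by_cases hr : R' (N - s) z.2 z.1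
        · rw [kil_of hr, if_neg]
          rw [hsp s hs]
          exact fun h => h hr
        · rw [kil_of_not hr, if_pos ((hsp s hs).mpr hr)]
          show F (N - min s N) _ _ = _
          rw [min_eq_left hs]
      · rw [min_eq_right hs, Nat.sub_self, kil_of h0, if_neg]
        intro hlt
        have := (hsp N le_rfl).mp (by omega)
        rw [Nat.sub_self] at this
        exact this h0
    · have e : κ z = 2 ^ J + N + 1 := by rw [hκ]; exact if_neg h0
      rw [e, if_pos (by omega), kil_of_not]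
      exact fun h => h0 (hR 0 _ _ _ (Nat.zero_le _) h)
  have h := killed_window (iv N S ×ˢ iv N R) (ω := fun _ => 1) (fun _ _ => zero_le_one)
    (fun s z => F (N - min s N) z.2 z.1) κ J (D := D) (E := E)
    (fun j hj => by rw [← win_eq_sum]; exact hD j hj)
    (by
      have : sq N R S (F N) = ∑ z ∈ iv N S ×ˢ iv N R,
          (fun _ => (1 : ℝ)) z * (fun (s : ℕ) (z : ℤ × ℤ) => F (N - min s N) z.2 z.1) 0 z ^ 2 := by
        rw [sq_eq_sum]
        refine sum_congr rfl fun z _ => ?_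
        simp
      rw [← this]
      exact hE) j hj
  refine le_trans (le_of_eq ?_) h
  rw [win_eq_sum]
  refine sum_congr rfl fun i hi => sum_congr rfl fun z _ => ?_
  have hi' := mem_range.mp hi
  have hb : (2 * i + 1) * 2 ^ j < 2 ^ J := by
    have e : 2 ^ J = (2 * 2 ^ (J - 1 - j)) * 2 ^ j := by
      rw [← pow_succ', ← pow_add]; congr 1; omega
    rw [e]
    exact Nat.mul_lt_mul_of_pos_right (by omega) (by positivity)
  have hb' : (2 * i) * 2 ^ j < 2 ^ J := lt_of_le_of_lt (by gcongr; omega) hb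
  have h1 := (hkey ((2 * i + 1) * 2 ^ j) z).resolve_right (by omega)
  have h2 := (hkey ((2 * i) * 2 ^ j) z).resolve_right (by omega)
  simp only [h1, h2]

/-- **All of `Mv` for a killed path** (energies at all scales `k` with `N - k < 2 ^ J`, windows),
with one constant. -/
theorem mv_kil {N J : ℕ} {R S : ℤ} {F : ℕ → ℤ → ℤ → ℝ} {R' : ℕ → ℤ → ℤ → Prop} {E D : ℝ}
    (hR : ∀ k l x y, k ≤ l → R' l x y → R' k x y)
    (hE : sq N R S (F N) ≤ E) (hD0 : 0 ≤ D) (hD : ∀ j, j < J → win N R S J j F ≤ D) :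
    (∀ k, k ≤ N → N - k < 2 ^ J →
      sq N R S (kil R' F k) ≤ 3 * E + (1 + 3 * J * (J + 1)) * D) ∧
    ∀ j, j < J → win N R S J j (kil R' F) ≤ 3 * E + (1 + 3 * J * (J + 1)) * D := by
  refine ⟨fun k hk hkJ => ?_, fun j hj => win_kil hR hE hD hj⟩
  refine (sq_kil_le R' F N R S k).trans ((sq_sup hE hD hk hkJ).trans ?_)
  nlinarith

/-- The number used after Cauchy–Schwarz in a frozen variable: top energy plus all windows. -/
def dtot (N : ℕ) (R S : ℤ) (J : ℕ) (F : ℕ → ℤ → ℤ → ℝ) : ℝ :=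
  sq N R S (F N) + ∑ j ∈ range J, win N R S J j F

theorem dtot_nonneg (N : ℕ) (R S : ℤ) (J : ℕ) (F : ℕ → ℤ → ℤ → ℝ) : 0 ≤ dtot N R S J F :=
  add_nonneg (sq_nonneg' _ _ _ _) (sum_nonneg fun _ _ => win_nonneg _ _ _ _ _ _)

theorem top_le_dtot (N : ℕ) (R S : ℤ) (J : ℕ) (F : ℕ → ℤ → ℤ → ℝ) :
    sq N R S (F N) ≤ dtot N R S J F :=
  le_add_of_nonneg_right (sum_nonneg fun _ _ => win_nonneg _ _ _ _ _ _)

theorem win_le_dtot {N : ℕ} {R S : ℤ} {J : ℕ} {F : ℕ → ℤ → ℤ → ℝ} {j : ℕ} (hj : j < J) :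
    win N R S J j F ≤ dtot N R S J F :=
  (single_le_sum (f := fun j => win N R S J j F) (fun _ _ => win_nonneg _ _ _ _ _ _)
    (mem_range.mpr hj)).trans (le_add_of_nonneg_left (sq_nonneg' _ _ _ _))

/-- `Mv` for the killed path with the constant `4 (1 + J (J + 1)) * dtot`. -/
theorem mv_kil_dtot {N J : ℕ} {R S : ℤ} {F : ℕ → ℤ → ℤ → ℝ} {R' : ℕ → ℤ → ℤ → Prop}
    (hR : ∀ k l x y, k ≤ l → R' l x y → R' k x y) :
    (∀ k, k ≤ N → N - k < 2 ^ J →
      sq N R S (kil R' F k) ≤ 4 * (1 + J * (J + 1)) * dtot N R S J F) ∧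
    ∀ j, j < J → win N R S J j (kil R' F) ≤ 4 * (1 + J * (J + 1)) * dtot N R S J F := by
  have h0 := dtot_nonneg N R S J F
  have h := mv_kil hR (top_le_dtot N R S J F) h0 (fun j hj => win_le_dtot hj)
  have h1 : 3 * dtot N R S J F + (1 + 3 * J * (J + 1)) * dtot N R S J F
      ≤ 4 * (1 + J * (J + 1)) * dtot N R S J F := by
    have : (0 : ℝ) ≤ (J : ℝ) * (J + 1) := by positivity
    nlinarith [mul_nonneg this h0]
  exact ⟨fun k hk hkJ => (h.1 k hk hkJ).trans h1, fun j hj => (h.2 j hj).trans h1⟩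

/-- **Sum over a frozen variable.**  If for every pair `(x, y)` of the root square the energies and
the windows summed over the frozen variable `t ∈ T` are at most `L * u x y ^ 2`, then the sum over
`t` of `dtot` is at most `(J + 1) * L * sq u`. -/
theorem sum_dtot_le {ι : Type*} (T : Finset ι) {N J : ℕ} {R S : ℤ} (F : ι → ℕ → ℤ → ℤ → ℝ)
    (u : ℤ → ℤ → ℝ) {L : ℝ}
    (hE : ∀ x ∈ iv N R, ∀ y ∈ iv N S, ∑ t ∈ T, F t N x y ^ 2 ≤ L * u x y ^ 2)
    (hD : ∀ j, j < J → ∀ x ∈ iv N R, ∀ y ∈ iv N S, ∑ t ∈ T, ∑ i ∈ range (2 ^ (J - 1 - j)),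
      (F t (N - min ((2 * i + 1) * 2 ^ j) N) x y - F t (N - min ((2 * i) * 2 ^ j) N) x y) ^ 2
        ≤ L * u x y ^ 2) :
    ∑ t ∈ T, dtot N R S J (F t) ≤ (J + 1) * (L * sq N R S u) := by
  have h1 : ∑ t ∈ T, sq N R S (F t N) ≤ L * sq N R S u := by
    unfold H588.sq
    rw [sum_comm, mul_sum]
    refine sum_le_sum fun y hy => ?_
    rw [sum_comm, mul_sum]
    exact sum_le_sum fun x hx => hE x hx y hy
  have h2 : ∀ j ∈ range J, ∑ t ∈ T, win N R S J j (F t) ≤ L * sq N R S u := by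
    intro j hj
    have hj' := mem_range.mp hj
    have e : ∑ t ∈ T, win N R S J j (F t) = ∑ y ∈ iv N S, ∑ x ∈ iv N R, ∑ t ∈ T,
        ∑ i ∈ range (2 ^ (J - 1 - j)),
          (F t (N - min ((2 * i + 1) * 2 ^ j) N) x y
            - F t (N - min ((2 * i) * 2 ^ j) N) x y) ^ 2 := by
      have e1 : ∀ t ∈ T, win N R S J j (F t) = ∑ y ∈ iv N S, ∑ x ∈ iv N R,
          ∑ i ∈ range (2 ^ (J - 1 - j)),
            (F t (N - min ((2 * i + 1) * 2 ^ j) N) x y
              - F t (N - min ((2 * i) * 2 ^ j) N) x y) ^ 2 := by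
        intro t _
        unfold win H588.sq
        rw [sum_comm]
        refine sum_congr rfl fun y _ => ?_
        rw [sum_comm]
        rfl
      rw [sum_congr rfl e1, sum_comm]
      refine sum_congr rfl fun y _ => ?_
      rw [sum_comm]
    rw [e]
    unfold H588.sq
    rw [mul_sum]
    refine sum_le_sum fun y hy => ?_
    rw [mul_sum]
    exact sum_le_sum fun x hx => hD j hj' x hx y hy
  unfold dtot
  rw [sum_add_distrib, sum_comm]
  have h3 := sum_le_sum h2
  rw [sum_const, card_range, nsmul_eq_mul] at h3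
  linarith

end

end Vale.Agent.P141.PL.H997
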